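import Mathlib
import Vale.Agent.P110.Full.Target.Kernel
import Vale.Agent.P130.Full.Defs

/-!
Riesz products of stacking data: a product of stage polynomials is a normalised sum of distinct
characters of frequency below the height, and Parseval for such sums.
-/

noncomputable section

namespace Vale.Agent.P130.Full.Riesz

open Finset MeasureTheory intervalIntegral
open Vale.Agent.P110.Full (ch ch_add norm_ch conj_ch)
open Vale.Agent.P110.Full.Target (continuous_ch ch_int ch_add_int)

theorem ch_natCast_add (x : ℝ) (n : ℕ) : ch ((n : ℝ) + x) = ch x := by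
  rw [add_comm, ← Int.cast_natCast (R := ℝ) n, ch_add_int]

theorem integral_ch_mul (n : ℤ) :
    ∫ t in (0 : ℝ)..1, ch (n * t) = if n = 0 then 1 else 0 := by
  have hp : Function.Periodic (fun t : ℝ => ch (n * t)) 1 := fun t => by
    simp only
    rw [mul_add, mul_one, ch_add_int]
  have := hp.intervalIntegral_add_eq (-(1 / 2 : ℝ)) 0
  rw [zero_add, show -(1 / 2 : ℝ) + 1 = 1 / 2 by norm_num] at this
  rw [← this]
  exact Vale.Agent.P110.Full.Target.integral_ch n

/-- Parseval for finite sums of characters with distinct frequencies. -/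
theorem integral_norm_sq {ι : Type*} (s : Finset ι) (f : ι → ℕ) (hf : Set.InjOn f s) (c : ι → ℂ) :
    ∫ t in (0 : ℝ)..1, ‖∑ i ∈ s, c i * ch (f i * t)‖ ^ 2 = ∑ i ∈ s, ‖c i‖ ^ 2 := by
  have hexp : ∀ t : ℝ, ((‖∑ i ∈ s, c i * ch (f i * t)‖ ^ 2 : ℝ) : ℂ) = ∑ i ∈ s, ∑ j ∈ s,
      c i * (starRingEnd ℂ) (c j) * ch (((f i : ℤ) - (f j : ℤ) : ℤ) * t) := fun t => by
    push_cast
    rw [← Complex.mul_conj', map_sum, Finset.sum_mul_sum]
    refine sum_congr rfl fun i _ => sum_congr rfl fun j _ => ?_
    rw [map_mul, conj_ch, sub_mul, sub_eq_add_neg, ch_add]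
    ring
  have hc : ∀ i j, Continuous fun t : ℝ =>
      c i * (starRingEnd ℂ) (c j) * ch (((f i : ℤ) - (f j : ℤ) : ℤ) * t) := fun i j =>
    continuous_const.mul (continuous_ch.comp (continuous_const.mul continuous_id))
  have h : ((∫ t in (0 : ℝ)..1, ‖∑ i ∈ s, c i * ch (f i * t)‖ ^ 2 : ℝ) : ℂ) =
      ((∑ i ∈ s, ‖c i‖ ^ 2 : ℝ) : ℂ) := by
    rw [← intervalIntegral.integral_ofReal]
    simp only [hexp]
    rw [intervalIntegral.integral_finsetSum fun i _ =>
      (continuous_finsetSum _ fun j _ => hc i j).intervalIntegrable _ _]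
    rw [Complex.ofReal_sum]
    refine sum_congr rfl fun i hi => ?_
    rw [intervalIntegral.integral_finsetSum fun j _ => (hc i j).intervalIntegrable _ _,
      sum_eq_single i]
    · rw [intervalIntegral.integral_const_mul, integral_ch_mul, if_pos (sub_self _), mul_one,
        Complex.mul_conj', Complex.ofReal_pow]
    · intro j hj hji
      rw [intervalIntegral.integral_const_mul, integral_ch_mul,
        if_neg (fun e => hji (hf hj hi (by omega))), mul_zero]
    · exact fun h => absurd hi h
  exact_mod_cast h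

end Vale.Agent.P130.Full.Riesz

namespace Vale.Agent.P130.Full.Stack

open Finset MeasureTheory intervalIntegral
open Vale.Agent.P110.Full (ch ch_add norm_ch)
open Vale.Agent.P110.Full.Target (continuous_ch)

variable (S : Stack)

theorem height_pos : ∀ n, 0 < S.height n
  | 0 => Nat.one_pos
  | n + 1 => by
    have := height_pos n
    have := S.two_le n
    rw [height]
    positivity

theorem pos_add_le (n : ℕ) (j : Fin (S.m n)) :
    S.pos n j + S.height n ≤ ((j : ℕ) + 1) * (S.height n + S.A n) := by
  have := S.a_le n j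
  rw [pos, add_one_mul]
  omega

theorem pos_add_le_succ (n : ℕ) (j : Fin (S.m n)) :
    S.pos n j + S.height n ≤ S.height (n + 1) :=
  (S.pos_add_le n j).trans (Nat.mul_le_mul_right _ j.2)

theorem pos_lt_pos (n : ℕ) {i j : Fin (S.m n)} (h : i < j) :
    S.pos n i + S.height n ≤ S.pos n j :=
  (S.pos_add_le n i).trans ((Nat.mul_le_mul_right _ h).trans (Nat.le_add_right _ _))

theorem pos_add_inj (n : ℕ) {i j : Fin (S.m n)} {x y : ℕ} (hx : x < S.height n)
    (hy : y < S.height n) (h : S.pos n i + x = S.pos n j + y) : i = j ∧ x = y := by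
  rcases lt_trichotomy i j with hij | rfl | hij
  · have := S.pos_lt_pos n hij
    omega
  · exact ⟨rfl, by omega⟩
  · have := S.pos_lt_pos n hij
    omega

theorem height_le_succ (n : ℕ) : S.height n ≤ S.height (n + 1) := by
  rw [height]
  have := S.two_le n
  calc S.height n ≤ 1 * (S.height n + S.A n) := by omega
    _ ≤ _ := Nat.mul_le_mul_right _ (by omega)

theorem continuous_poly (n : ℕ) : Continuous (S.poly n) :=
  (continuous_finsetSum _ fun _ _ => continuous_ch.comp
    (continuous_const.mul continuous_id)).div_const _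

theorem continuous_prod (k n : ℕ) : Continuous (S.prod k n) :=
  continuous_finsetProd _ fun i _ => S.continuous_poly i

theorem prod_self (k : ℕ) (t : ℝ) : S.prod k k t = 1 := by simp [prod]

theorem prod_succ {k n : ℕ} (hkn : k ≤ n) (t : ℝ) :
    S.prod k (n + 1) t = S.prod k n t * S.poly n t := by
  rw [prod, prod, prod_Ico_succ_top hkn]

/-- A product of stage polynomials is a normalised sum of distinct characters. -/
theorem exists_support {k n : ℕ} (hkn : k ≤ n) : ∃ s : Finset ℕ, s.Nonempty ∧
    (∀ i ∈ s, i < S.height n) ∧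
    ∀ t : ℝ, S.prod k n t = (∑ i ∈ s, ch (i * t)) / (Real.sqrt s.card : ℂ) := by
  induction n, hkn using Nat.le_induction with
  | base =>
    exact ⟨{0}, singleton_nonempty 0, fun i hi => by simp at hi; subst hi; exact S.height_pos k,
      fun t => by simp [prod_self, ch]⟩
  | succ n hkn ih =>
    obtain ⟨s, hne, hlt, hs⟩ := ih
    have hinj : Set.InjOn (fun x : Fin (S.m n) × ℕ => S.pos n x.1 + x.2)
        ↑((univ : Finset (Fin (S.m n))) ×ˢ s) := by
      intro x hx y hy hxy
      simp only [coe_product, Set.mem_prod, mem_coe] at hx hy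
      obtain ⟨h1, h2⟩ := S.pos_add_inj n (hlt _ hx.2) (hlt _ hy.2) hxy
      exact Prod.ext h1 h2
    have : NeZero (S.m n) := ⟨by have := S.two_le n; omega⟩
    refine ⟨((univ : Finset (Fin (S.m n))) ×ˢ s).image fun x => S.pos n x.1 + x.2,
      (univ_nonempty.product hne).image _, ?_, fun t => ?_⟩
    · intro i hi
      obtain ⟨x, hx, rfl⟩ := mem_image.1 hi
      have := hlt _ (mem_product.1 hx).2
      have := S.pos_add_le_succ n x.1
      omega
    · rw [card_image_of_injOn hinj, sum_image hinj, card_product, card_univ, Fintype.card_fin,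
        S.prod_succ hkn, hs, poly, Nat.cast_mul, Real.sqrt_mul (Nat.cast_nonneg _),
        Complex.ofReal_mul, div_mul_div_comm, mul_comm (Real.sqrt (S.m n) : ℂ),
        Finset.sum_mul_sum, sum_product, sum_comm]
      congr 1
      refine sum_congr rfl fun j _ => sum_congr rfl fun i _ => ?_
      rw [← ch_add]
      congr 1
      push_cast
      ring

theorem integral_prod_sq {k n : ℕ} (hkn : k ≤ n) :
    ∫ t in (0 : ℝ)..1, ‖S.prod k n t‖ ^ 2 = 1 := by
  obtain ⟨s, hne, -, hs⟩ := S.exists_support hkn
  have h := Riesz.integral_norm_sq s id Function.injective_id.injOn fun _ => 1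
  simp only [id_eq, one_mul, norm_one, one_pow, sum_const, nsmul_eq_mul, mul_one] at h
  simp only [hs, norm_div, div_pow, intervalIntegral.integral_div, h, Complex.norm_real,
    Real.norm_eq_abs, sq_abs, Real.sq_sqrt (Nat.cast_nonneg _)]
  exact div_self (Nat.cast_ne_zero.2 hne.card_pos.ne')

end Vale.Agent.P130.Full.Stack
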