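import Vale.Agent.P130.Full.Riesz.Sampling
import Vale.Agent.P130.Full.Statements

/-!
Module Riesz: a flat family gives flat stacking data of finite measure. At stage `n` the branch
`[l/H, (l+1)/H]` of the new polynomial is the column polynomial at offset frequency about `l/H`;
the weights given to the flat family are the branch maxima of the earlier products.
-/

noncomputable section

namespace Vale.Agent.P130.Full.Riesz

open Finset MeasureTheory intervalIntegral
open Vale.Agent.P110.Full (ch ch_add norm_ch)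
open Vale.Agent.P110.Full.Target (continuous_ch)

/-- The normalised polynomial that offsets `b` would give at stage `n`. -/
def polyWith (S : Stack) (n : ℕ) (b : Fin (S.m n) → ℕ) (t : ℝ) : ℂ :=
  (∑ j : Fin (S.m n), ch ((((j : ℕ) * (S.height n + S.A n) + b j : ℕ) : ℝ) * t)) /
    (Real.sqrt (S.m n) : ℂ)

theorem continuous_polyWith (S : Stack) (n : ℕ) (b : Fin (S.m n) → ℕ) :
    Continuous (polyWith S n b) :=
  (continuous_finsetSum _ fun _ _ => continuous_ch.comp
    (continuous_const.mul continuous_id)).div_const _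

theorem norm_polyWith_branch (S : Stack) (n : ℕ) (b : Fin (S.m n) → ℕ) (l : ℕ) (u : ℝ) :
    ‖polyWith S n b (((l : ℝ) + u) / (S.height n + S.A n : ℕ))‖ =
      ‖column b (((l : ℝ) + u) / (S.height n + S.A n : ℕ)) u‖ / Real.sqrt (S.m n) := by
  rw [polyWith, norm_div, Complex.norm_real, Real.norm_eq_abs, abs_of_nonneg (Real.sqrt_nonneg _)]
  congr 2
  refine Finset.sum_congr rfl fun j _ => ?_
  have hH : ((S.height n + S.A n : ℕ) : ℝ) ≠ 0 := by
    have := S.height_pos n
    exact Nat.cast_ne_zero.2 (by omega)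
  rw [← ch_natCast_add (((l : ℝ) + u) / ((S.height n + S.A n : ℕ) : ℝ) * (b j : ℕ) + (j : ℕ) * u)
    ((j : ℕ) * l)]
  congr 1
  rw [Nat.cast_add ((j : ℕ) * (S.height n + S.A n)), Nat.cast_mul, Nat.cast_mul]
  field_simp
  ring

/-- One stage: offsets for stage `n` that are flat against all earlier products. -/
theorem exists_stage (S : Stack) (n : ℕ) {ε : ℝ} (hε : 0 < ε) (hε2 : ε ≤ 1 / 2)
    (hW : ∀ (L : ℕ) (ψ w : Fin L → ℝ), (∀ l, ψ l ∈ Set.Icc ε (1 - ε)) → (∀ l, 0 ≤ w l) →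
      ∃ a : Fin (S.m n) → ℕ, (∀ j, a j ≤ S.A n) ∧
        ∑ l, w l * ∫ u in (0 : ℝ)..1,
          (‖column a (ψ l) u‖ / Real.sqrt (S.m n) - 1) ^ 2 ≤ ε * ∑ l, w l) :
    ∃ b : Fin (S.m n) → ℕ, (∀ j, b j ≤ S.A n) ∧
      ((2 * Real.pi * S.A n / (S.height n + S.A n : ℕ)) ^ 2 ≤ ε →
        ∀ k ≤ n, ∀ δ : ℝ, ε + 1 / (S.height n + S.A n : ℕ) ≤ δ → δ ≤ 1 / 2 →
          ∫ t in δ..(1 - δ), ‖S.prod k n t‖ ^ 2 * (‖polyWith S n b t‖ - 1) ^ 2 ≤
            4 * (1 + 4 * Real.pi) * (n + 1) * ε) := by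
  classical
  set H := S.height n + S.A n with hHdef
  have hH0 : 0 < H := by have := S.height_pos n; omega
  have hHR : (0 : ℝ) < H := Nat.cast_pos.2 hH0
  have hm0 : (0 : ℝ) < S.m n := Nat.cast_pos.2 (by have := S.two_le n; omega)
  have hex : ∀ k, ∃ w : ℕ → ℝ, (∀ l, 0 ≤ w l) ∧ (k ≤ n →
      (∀ l : ℕ, ∀ t ∈ Set.Icc ((l : ℝ) / H) (((l : ℝ) + 1) / H), ‖S.prod k n t‖ ^ 2 ≤ w l) ∧
      ∑ l ∈ range H, w l ≤ (1 + 4 * Real.pi) * H) := by
    intro k
    by_cases hk : k ≤ n
    · obtain ⟨w, h0, h1, h2⟩ := exists_weights S hk (H := H) (Nat.le_add_right _ _)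
      exact ⟨w, h0, fun _ => ⟨h1, h2⟩⟩
    · exact ⟨fun _ => 0, fun _ => le_rfl, fun h => absurd h hk⟩
  choose w hw0 hw using hex
  set lo := ⌈ε * H⌉₊ with hlo
  set hi := ⌊(1 - ε) * H⌋₊ + 1 with hhi
  have hhiH : hi ≤ H := by
    have : ⌊(1 - ε) * (H : ℝ)⌋₊ < H := (Nat.floor_lt (by nlinarith)).2 (by nlinarith)
    omega
  set W : ℕ → ℝ := fun l => if lo ≤ l ∧ l < hi then ∑ k ∈ range (n + 1), w k l else 0 with hWdef
  set ψ : ℕ → ℝ := fun l => if lo ≤ l ∧ l < hi then (l : ℝ) / H else 1 / 2 with hψdef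
  have hWsum0 : ∀ l, 0 ≤ ∑ k ∈ range (n + 1), w k l := fun l => sum_nonneg fun k _ => hw0 k l
  have hWnn : ∀ l, 0 ≤ W l := fun l => by
    simp only [hWdef]
    split_ifs
    exacts [hWsum0 l, le_rfl]
  have hψmem : ∀ l, ψ l ∈ Set.Icc ε (1 - ε) := by
    intro l
    simp only [hψdef]
    split_ifs with h
    · refine ⟨(le_div_iff₀ hHR).2 ((Nat.le_ceil _).trans (Nat.cast_le.2 h.1)), (div_le_iff₀ hHR).2 ?_⟩
      exact (Nat.cast_le.2 (by omega : l ≤ ⌊(1 - ε) * (H : ℝ)⌋₊)).trans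
        (Nat.floor_le (by nlinarith))
    · exact ⟨hε2, by linarith⟩
  obtain ⟨b, hb, hbound⟩ := hW H (fun l => ψ l) (fun l => W l) (fun l => hψmem l) fun l => hWnn l
  refine ⟨b, hb, fun hsmall k hk δ hδ hδ2 => ?_⟩
  rw [Fin.sum_univ_eq_sum_range (fun l => W l * ∫ u in (0 : ℝ)..1,
    (‖column b (ψ l) u‖ / Real.sqrt (S.m n) - 1) ^ 2) H, Fin.sum_univ_eq_sum_range W H] at hbound
  set f : ℝ → ℝ := fun t => ‖S.prod k n t‖ ^ 2 * (‖polyWith S n b t‖ - 1) ^ 2 with hf
  have hfc : Continuous f := ((S.continuous_prod k n).norm.pow 2).mul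
    (((continuous_polyWith S n b).norm.sub continuous_const).pow 2)
  have hf0 : ∀ t, 0 ≤ f t := fun t => mul_nonneg (sq_nonneg _) (sq_nonneg _)
  have hloδ : (lo : ℝ) / H ≤ δ := by
    refine le_trans ?_ hδ
    rw [div_le_iff₀ hHR, add_mul, one_div_mul_cancel hHR.ne']
    exact (Nat.ceil_lt_add_one (by positivity)).le
  have hhiδ : 1 - δ ≤ (hi : ℝ) / H := by
    rw [le_div_iff₀ hHR]
    have h1 := Nat.lt_floor_add_one ((1 - ε) * (H : ℝ))
    have h2 : ε ≤ δ := le_trans (le_add_of_nonneg_right (by positivity)) hδ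
    rw [hhi]
    push_cast
    nlinarith
  have hlohi : lo ≤ hi := by
    have : (lo : ℝ) ≤ hi :=
      (div_le_div_iff_of_pos_right hHR).1 ((hloδ.trans (by linarith)).trans hhiδ)
    exact_mod_cast this
  have hstep : ∫ t in δ..(1 - δ), f t ≤
      ∑ l ∈ Ico lo hi, ∫ t in ((l : ℝ) / H)..(((l : ℝ) + 1) / H), f t := by
    have e := intervalIntegral.sum_integral_adjacent_intervals_Ico (μ := volume) (f := f)
      (a := fun l : ℕ => (l : ℝ) / H) hlohi fun l _ => hfc.intervalIntegrable _ _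
    simp only [Nat.cast_add, Nat.cast_one] at e
    rw [e]
    exact intervalIntegral.integral_mono_interval hloδ (by linarith) hhiδ
      (Filter.Eventually.of_forall hf0) (hfc.intervalIntegrable _ _)
  refine hstep.trans ?_
  set err : ℕ → ℝ := fun l => ∫ u in (0 : ℝ)..1,
    (‖column b (ψ l) u‖ / Real.sqrt (S.m n) - 1) ^ 2 with herr
  have hbr : ∀ l ∈ Ico lo hi, ∫ t in ((l : ℝ) / H)..(((l : ℝ) + 1) / H), f t ≤
      2 / H * (W l * err l) + 2 * ε / H * W l := by
    intro l hl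
    rw [mem_Ico] at hl
    have hψl : ψ l = (l : ℝ) / H := if_pos hl
    have hWl : W l = ∑ k ∈ range (n + 1), w k l := if_pos hl
    have e := intervalIntegral.integral_comp_mul_add f (c := (H : ℝ)⁻¹) (inv_ne_zero hHR.ne')
      ((l : ℝ) / H) (a := 0) (b := 1)
    rw [mul_zero, zero_add, mul_one, show (H : ℝ)⁻¹ + (l : ℝ) / H = ((l : ℝ) + 1) / H by
      field_simp; ring, inv_inv, smul_eq_mul] at e
    rw [show ∫ t in ((l : ℝ) / H)..(((l : ℝ) + 1) / H), f t =
      (∫ x in (0 : ℝ)..1, f ((H : ℝ)⁻¹ * x + (l : ℝ) / H)) / H by rw [e]; field_simp]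
    set p : ℝ → ℝ := fun u => ‖column b ((l : ℝ) / H + u * (1 / H)) u‖ with hp
    set q : ℝ → ℝ := fun u => ‖column b ((l : ℝ) / H) u‖ with hq
    have hpc : Continuous p := ((continuous_column b).comp
      ((continuous_const.add (continuous_id.mul continuous_const)).prodMk continuous_id)).norm
    have hqc : Continuous q :=
      ((continuous_column b).comp (continuous_const.prodMk continuous_id)).norm
    have hpt : ∀ u ∈ Set.Icc (0 : ℝ) 1, f ((H : ℝ)⁻¹ * u + (l : ℝ) / H) ≤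
        2 * W l * (q u / Real.sqrt (S.m n) - 1) ^ 2 +
          2 * W l / S.m n * (p u - q u) ^ 2 := by
      intro u hu
      have ht : (H : ℝ)⁻¹ * u + (l : ℝ) / H = ((l : ℝ) + u) / H := by field_simp; ring
      have hmem : ((l : ℝ) + u) / H ∈ Set.Icc ((l : ℝ) / H) (((l : ℝ) + 1) / H) :=
        ⟨div_le_div_of_nonneg_right (by linarith [hu.1]) hHR.le,
          div_le_div_of_nonneg_right (by linarith [hu.2]) hHR.le⟩
      have hwk : ‖S.prod k n (((l : ℝ) + u) / H)‖ ^ 2 ≤ W l := by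
        rw [hWl]
        exact ((hw k hk).1 l _ hmem).trans
          (single_le_sum (f := fun k => w k l) (fun i _ => hw0 i l) (mem_range.2 (by omega)))
      rw [ht, hf]
      simp only
      rw [norm_polyWith_branch, show ((l : ℝ) + u) / H = (l : ℝ) / H + u * (1 / H) by ring]
      rw [show ((l : ℝ) + u) / H = (l : ℝ) / H + u * (1 / H) by ring] at hwk
      refine (mul_le_mul_of_nonneg_right hwk (sq_nonneg _)).trans ?_
      have e2 : 2 * W l * (q u / Real.sqrt (S.m n) - 1) ^ 2 +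
          2 * W l / S.m n * (p u - q u) ^ 2 =
          W l * (2 * (q u / Real.sqrt (S.m n) - 1) ^ 2 +
            2 * (p u / Real.sqrt (S.m n) - q u / Real.sqrt (S.m n)) ^ 2) := by
        rw [← sub_div, div_pow, Real.sq_sqrt hm0.le]
        ring
      rw [e2]
      refine mul_le_mul_of_nonneg_left ?_ (hWnn l)
      change (p u / Real.sqrt (S.m n) - 1) ^ 2 ≤ _
      nlinarith [sq_nonneg (p u / Real.sqrt (S.m n) - 2 * (q u / Real.sqrt (S.m n)) + 1)]
    have hfc' : Continuous fun u => f ((H : ℝ)⁻¹ * u + (l : ℝ) / H) :=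
      hfc.comp ((continuous_const.mul continuous_id).add continuous_const)
    have hc1 : Continuous fun u => 2 * W l * (q u / Real.sqrt (S.m n) - 1) ^ 2 :=
      continuous_const.fun_mul (((hqc.div_const _).fun_sub continuous_const).fun_pow 2)
    have hc2 : Continuous fun u => 2 * W l / S.m n * (p u - q u) ^ 2 :=
      continuous_const.fun_mul ((hpc.fun_sub hqc).fun_pow 2)
    rw [div_le_iff₀ hHR]
    refine (intervalIntegral.integral_mono_on zero_le_one (hfc'.intervalIntegrable _ _)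
      ((hc1.fun_add hc2).intervalIntegrable _ _) hpt).trans ?_
    rw [intervalIntegral.integral_add (hc1.intervalIntegrable _ _) (hc2.intervalIntegrable _ _),
      intervalIntegral.integral_const_mul, intervalIntegral.integral_const_mul]
    have hpert : ∫ u in (0 : ℝ)..1, (p u - q u) ^ 2 ≤ ε * S.m n := by
      refine (perturb b hb ((l : ℝ) / H) (by positivity : (0 : ℝ) ≤ 1 / H)).trans ?_
      rw [show 2 * Real.pi * (S.A n : ℝ) * (1 / H) = 2 * Real.pi * S.A n / H by ring]
      exact mul_le_mul_of_nonneg_right hsmall hm0.le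
    have h3 := mul_le_mul_of_nonneg_left hpert
      (by have := hWnn l; positivity : (0 : ℝ) ≤ 2 * W l / S.m n)
    have e3 : 2 * W l / S.m n * (ε * S.m n) = 2 * ε * W l := by field_simp
    have e4 : (2 / (H : ℝ) * (W l * err l) + 2 * ε / H * W l) * H =
        2 * (W l * err l) + 2 * ε * W l := by field_simp
    have e5 : err l = ∫ u in (0 : ℝ)..1, (q u / Real.sqrt (S.m n) - 1) ^ 2 := by
      simp only [herr, hq, hψl]
    rw [e4, e5]
    linarith
  refine (Finset.sum_le_sum hbr).trans ?_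
  have herr0 : ∀ l, 0 ≤ err l := fun l =>
    intervalIntegral.integral_nonneg zero_le_one fun _ _ => sq_nonneg _
  have hsub : Ico lo hi ⊆ range H := fun l hl => by
    rw [mem_Ico] at hl
    rw [mem_range]
    omega
  refine (Finset.sum_le_sum_of_subset_of_nonneg hsub fun l _ _ => ?_).trans ?_
  · have := hWnn l
    have := herr0 l
    positivity
  rw [Finset.sum_add_distrib, ← Finset.mul_sum, ← Finset.mul_sum]
  have htot : ∑ l ∈ range H, W l ≤ (n + 1) * ((1 + 4 * Real.pi) * H) := by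
    refine (Finset.sum_le_sum (g := fun l => ∑ k ∈ range (n + 1), w k l) fun l _ => ?_).trans ?_
    · simp only [hWdef]
      split_ifs
      exacts [le_rfl, hWsum0 l]
    rw [Finset.sum_comm]
    refine (Finset.sum_le_sum fun k hk => (hw k (by simp at hk; omega)).2).trans (le_of_eq ?_)
    rw [sum_const, card_range, nsmul_eq_mul]
    push_cast
    ring
  have h1 := mul_le_mul_of_nonneg_left hbound (by positivity : (0 : ℝ) ≤ 2 / (H : ℝ))
  have h2 := mul_le_mul_of_nonneg_left htot (by positivity : (0 : ℝ) ≤ 4 * ε / (H : ℝ))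
  have e6 : 4 * ε / (H : ℝ) * (((n : ℝ) + 1) * ((1 + 4 * Real.pi) * H)) =
      4 * (1 + 4 * Real.pi) * (n + 1) * ε := by field_simp
  have e7 : 2 / (H : ℝ) * (ε * ∑ l ∈ range H, W l) + 2 * ε / H * ∑ l ∈ range H, W l =
      4 * ε / H * ∑ l ∈ range H, W l := by ring
  linarith

/-- The precision of stage `n`. -/
def eps (n : ℕ) : ℝ := (1 / 4 : ℝ) ^ n / (60 * (n + 1))

theorem eps_pos (n : ℕ) : 0 < eps n := by unfold eps; positivity

theorem eps_le (n : ℕ) : eps n ≤ (1 / 4 : ℝ) ^ n :=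
  div_le_self (by positivity) (by linarith [(Nat.cast_nonneg n : (0 : ℝ) ≤ n)])

theorem four_mul_eps_le (n : ℕ) :
    4 * (1 + 4 * Real.pi) * (n + 1) * eps n ≤ (1 / 4 : ℝ) ^ n := by
  have e : 4 * (1 + 4 * Real.pi) * (n + 1) * eps n =
      (1 / 4 : ℝ) ^ n * (4 * (1 + 4 * Real.pi) / 60) := by
    unfold eps
    field_simp
  rw [e]
  refine mul_le_of_le_one_right (by positivity) ?_
  linarith [Real.pi_lt_d2]

theorem height_congr {m A : ℕ → ℕ} {a a' : (n : ℕ) → Fin (m n) → ℕ} (h2 : ∀ n, 2 ≤ m n)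
    (ha : ∀ n j, a n j ≤ A n) (ha' : ∀ n j, a' n j ≤ A n) (n : ℕ) :
    (Stack.mk m A a h2 ha).height n = (Stack.mk m A a' h2 ha').height n := by
  induction n with
  | zero => rfl
  | succ n ih => simp only [Stack.height, ih]

theorem poly_congr {m A : ℕ → ℕ} {a a' : (n : ℕ) → Fin (m n) → ℕ} (h2 : ∀ n, 2 ≤ m n)
    (ha : ∀ n j, a n j ≤ A n) (ha' : ∀ n j, a' n j ≤ A n) {n : ℕ} (h : a n = a' n) (t : ℝ) :
    (Stack.mk m A a h2 ha).poly n t = (Stack.mk m A a' h2 ha').poly n t := by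
  simp only [Stack.poly, Stack.pos, height_congr h2 ha ha', h]

end Vale.Agent.P130.Full.Riesz

namespace Vale.Agent.P130.Full

open Finset MeasureTheory Riesz
open Vale.Agent.P110.Full (ch)

/-- Module Riesz. -/
theorem riesz : RieszStatement := by
  classical
  intro hC
  choose A hA using fun n => hC (eps n) (eps_pos n)
  choose M hM hW using fun n m₀ => hA n m₀
  set K : ℕ → ℕ := fun n => ⌈8 / eps n⌉₊ with hK
  set m : ℕ → ℕ := fun n => M n (2 + K (n + 1) * A (n + 1)) with hm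
  have h2 : ∀ n, 2 ≤ m n := fun n => le_trans (Nat.le_add_right _ _) (hM n _)
  have hbig : ∀ n, K (n + 1) * A (n + 1) ≤ m n := fun n =>
    le_trans (Nat.le_add_left _ _) (hM n _)
  have heps2 : ∀ n, eps n ≤ 1 / 2 := fun n => by
    have h1 : (1 / 4 : ℝ) ^ n ≤ 1 := pow_le_one₀ (by norm_num) (by norm_num)
    rw [eps, div_le_iff₀ (by positivity)]
    linarith [(Nat.cast_nonneg n : (0 : ℝ) ≤ n)]
  -- the offsets, one stage at a time
  let Off := {a : (n : ℕ) → Fin (m n) → ℕ // ∀ n j, a n j ≤ A n}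
  have hchoice : ∀ (n : ℕ) (a : Off), ∃ b : Fin (m n) → ℕ, (∀ j, b j ≤ A n) ∧
      ((2 * Real.pi * A n / ((Stack.mk m A a.1 h2 a.2).height n + A n : ℕ)) ^ 2 ≤ eps n →
        ∀ k ≤ n, ∀ δ : ℝ, eps n + 1 / ((Stack.mk m A a.1 h2 a.2).height n + A n : ℕ) ≤ δ →
          δ ≤ 1 / 2 →
          ∫ t in δ..(1 - δ), ‖(Stack.mk m A a.1 h2 a.2).prod k n t‖ ^ 2 *
            (‖polyWith (Stack.mk m A a.1 h2 a.2) n b t‖ - 1) ^ 2 ≤
              4 * (1 + 4 * Real.pi) * (n + 1) * eps n) := fun n a =>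
    exists_stage (Stack.mk m A a.1 h2 a.2) n (eps_pos n) (heps2 n) (hW n _)
  choose b hb hbnd using hchoice
  let stk : ℕ → Off := Nat.rec ⟨fun _ _ => 0, fun _ _ => Nat.zero_le _⟩ fun n a =>
    ⟨Function.update a.1 n (b n a), fun i j => by
      rcases eq_or_ne i n with rfl | hi
      · simpa using hb i a j
      · simpa [Function.update_of_ne hi] using a.2 i j⟩
  let af : Off := ⟨fun n => b n (stk n), fun n j => hb n (stk n) j⟩
  have hstk : ∀ N i, i < N → (stk N).1 i = af.1 i := by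
    intro N
    induction N with
    | zero => exact fun i hi => absurd hi (Nat.not_lt_zero i)
    | succ N ih =>
      intro i hi
      rcases eq_or_ne i N with rfl | hne
      · exact Function.update_self _ _ _
      · change Function.update (stk N).1 N (b N (stk N)) i = _
        rw [Function.update_of_ne hne]
        exact ih i (by omega)
  set S : Stack := Stack.mk m A af.1 h2 af.2 with hS
  have hgrow : ∀ n, K (n + 1) * A (n + 1) ≤ S.height (n + 1) := fun n => by
    refine (hbig n).trans ?_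
    rw [Stack.height]
    exact Nat.le_mul_of_pos_right _ (by have := S.height_pos n; omega)
  have hratio : ∀ n, (8 : ℝ) / eps (n + 1) * A (n + 1) ≤ S.height (n + 1) := fun n => by
    refine le_trans (mul_le_mul_of_nonneg_right (Nat.le_ceil _) (Nat.cast_nonneg _)) ?_
    exact_mod_cast hgrow n
  have hA8 : ∀ n, (A (n + 1) : ℝ) / S.height (n + 1) ≤ eps (n + 1) / 8 := fun n => by
    have hp : (0 : ℝ) < S.height (n + 1) := Nat.cast_pos.2 (S.height_pos _)
    have hep := eps_pos (n + 1)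
    have := hratio n
    rw [div_mul_eq_mul_div, div_le_iff₀ hep] at this
    rw [div_le_div_iff₀ hp (by norm_num : (0 : ℝ) < 8)]
    linarith
  refine ⟨S, ?_, ?_⟩
  · refine (summable_nat_add_iff 1).1 (Summable.of_nonneg_of_le (fun n => by positivity)
      (fun n => (hA8 n).trans ?_) (summable_geometric_of_lt_one (by norm_num : (0 : ℝ) ≤ 1 / 4)
        (by norm_num)))
    have h1 := eps_le (n + 1)
    have h3 : (1 / 4 : ℝ) ^ (n + 1) ≤ (1 / 4 : ℝ) ^ n :=
      pow_le_pow_of_le_one (by norm_num) (by norm_num) (Nat.le_succ n)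
    linarith [eps_pos (n + 1)]
  intro δ hδ
  rcases lt_or_ge (1 / 2 : ℝ) δ with hδ2 | hδ2
  · refine ⟨0, fun n _ k _ => le_trans ?_ (by positivity)⟩
    rw [intervalIntegral.integral_symm, neg_nonpos]
    exact intervalIntegral.integral_nonneg (by linarith) fun t _ =>
      mul_nonneg (sq_nonneg _) (sq_nonneg _)
  have hpow : Filter.Tendsto (fun n : ℕ => (1 / 4 : ℝ) ^ n + 1 / ((n : ℝ) + 1)) Filter.atTop
      (nhds (0 + 0)) :=
    (tendsto_pow_atTop_nhds_zero_of_lt_one (by norm_num) (by norm_num)).add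
      tendsto_one_div_add_atTop_nhds_zero_nat
  rw [add_zero] at hpow
  obtain ⟨n₀, hn₀⟩ := Filter.eventually_atTop.1 (hpow.eventually_le_const hδ)
  refine ⟨n₀ + 1, fun n hn k hk => ?_⟩
  obtain ⟨p, rfl⟩ : ∃ p, n = p + 1 := ⟨n - 1, by omega⟩
  have hh : (Stack.mk m A (stk (p + 1)).1 h2 (stk (p + 1)).2).height (p + 1) = S.height (p + 1) :=
    height_congr h2 _ _ _
  have hH : S.height (p + 1) ≤ S.height (p + 1) + A (p + 1) := Nat.le_add_right _ _
  have hHpos : (0 : ℝ) < S.height (p + 1) := Nat.cast_pos.2 (S.height_pos _)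
  have hHge : ∀ q, q + 1 ≤ S.height q := by
    intro q
    induction q with
    | zero => exact le_rfl
    | succ q ih =>
      rw [Stack.height]
      calc q + 1 + 1 ≤ 2 * (q + 1) := by omega
        _ ≤ S.m q * (S.height q + S.A q) := Nat.mul_le_mul (S.two_le q) (by omega)
  have hb1 := hbnd (p + 1) (stk (p + 1)) (by
    rw [hh]
    have h1 : 2 * Real.pi * A (p + 1) / ((S.height (p + 1) + A (p + 1) : ℕ) : ℝ) ≤ eps (p + 1) := by
      refine le_trans (div_le_div_of_nonneg_left (by positivity) hHpos (Nat.cast_le.2 hH)) ?_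
      rw [mul_div_assoc]
      refine (mul_le_mul_of_nonneg_left (hA8 p) (by positivity)).trans ?_
      have := eps_pos (p + 1)
      nlinarith [Real.pi_lt_d2, Real.pi_pos]
    have h0 : 0 ≤ 2 * Real.pi * A (p + 1) / ((S.height (p + 1) + A (p + 1) : ℕ) : ℝ) := by
      positivity
    calc _ ≤ eps (p + 1) ^ 2 := pow_le_pow_left₀ h0 h1 2
      _ ≤ eps (p + 1) := by
        rw [sq]
        exact mul_le_of_le_one_left (eps_pos _).le (by linarith [heps2 (p + 1)])) k hk δ (by
    rw [hh]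
    refine le_trans (add_le_add (eps_le (p + 1)) ?_) (hn₀ (p + 1) (by omega))
    refine one_div_le_one_div_of_le (by positivity) ?_
    have : p + 1 + 1 ≤ S.height (p + 1) + A (p + 1) := le_trans (hHge (p + 1)) hH
    exact_mod_cast this) hδ2
  refine le_trans (le_of_eq ?_) (hb1.trans (four_mul_eps_le (p + 1)))
  refine intervalIntegral.integral_congr fun t _ => ?_
  have hp1 : S.prod k (p + 1) t = (Stack.mk m A (stk (p + 1)).1 h2 (stk (p + 1)).2).prod k (p + 1) t := by
    refine Finset.prod_congr rfl fun i hi => ?_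
    exact poly_congr h2 _ _ ((hstk (p + 1) i (Finset.mem_Ico.1 hi).2).symm) t
  have hp2 : S.poly (p + 1) t =
      polyWith (Stack.mk m A (stk (p + 1)).1 h2 (stk (p + 1)).2) (p + 1) (b (p + 1) (stk (p + 1))) t := by
    simp only [Stack.poly, Stack.pos, polyWith, hh]
    rfl
  simp only [hp1, hp2]

end Vale.Agent.P130.Full
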