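import Vale.Agent.P130.Full.Riesz.Basic

/-!
Riesz, sampling: the maxima of a squared Riesz product over the branches `[l/H, (l+1)/H]` sum to
`O(H)`, and moving the offset frequency by `O(1/H)` inside a branch costs little in mean square.
-/

noncomputable section

namespace Vale.Agent.P130.Full.Riesz

open Finset MeasureTheory intervalIntegral
open Vale.Agent.P110.Full (ch ch_add norm_ch conj_ch)
open Vale.Agent.P110.Full.Target (continuous_ch ch_zero)

theorem hasDerivAt_ch_mul (a t : ℝ) :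
    HasDerivAt (fun t => ch (a * t)) (((2 * Real.pi * a : ℝ) : ℂ) * Complex.I * ch (a * t)) t := by
  have h := ((((hasDerivAt_id t).const_mul (2 * Real.pi * a)).ofReal_comp).mul_const Complex.I).cexp
  simp only [id_eq, mul_one] at h
  have e : ∀ t : ℝ, ch (a * t) = Complex.exp (((2 * Real.pi * a * t : ℝ) : ℂ) * Complex.I) :=
    fun t => by rw [ch, mul_assoc (2 * Real.pi)]
  simp only [e]
  refine h.congr_deriv ?_
  push_cast
  ring

theorem le_avg_add {g g' : ℝ → ℝ} {a b t : ℝ} (hab : a < b) (ht : t ∈ Set.Icc a b)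
    (hd : ∀ s, HasDerivAt g (g' s) s) (hc : Continuous g') :
    g t ≤ (∫ s in a..b, g s) / (b - a) + ∫ s in a..b, |g' s| := by
  have hg : Continuous g := continuous_iff_continuousAt.2 fun s => (hd s).continuousAt
  have hle : ∀ s ∈ Set.Icc a b, g t - g s ≤ ∫ r in a..b, |g' r| := by
    intro s hs
    rw [← integral_eq_sub_of_hasDerivAt (fun r _ => hd r) (hc.intervalIntegrable s t)]
    refine (le_abs_self _).trans ((norm_integral_le_abs_integral_norm (f := g')).trans ?_)
    refine (abs_integral_mono_interval ?_ (Filter.Eventually.of_forall fun r => norm_nonneg (g' r))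
      (hc.norm.intervalIntegrable a b)).trans (le_of_eq ?_)
    · exact Set.uIoc_subset_uIoc_of_uIcc_subset_uIcc
        (Set.uIcc_subset_uIcc (Set.Icc_subset_uIcc hs) (Set.Icc_subset_uIcc ht))
    · exact abs_of_nonneg (integral_nonneg hab.le fun r _ => norm_nonneg _)
  have h := intervalIntegral.integral_mono_on (μ := volume) hab.le (intervalIntegrable_const.sub (hg.intervalIntegrable a b))
    intervalIntegrable_const hle
  rw [intervalIntegral.integral_sub intervalIntegrable_const (hg.intervalIntegrable a b),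
    intervalIntegral.integral_const, intervalIntegral.integral_const, smul_eq_mul, smul_eq_mul] at h
  rw [← sub_le_iff_le_add, le_div_iff₀ (by linarith)]
  linarith

theorem sum_integral_branches {f : ℝ → ℝ} (hf : Continuous f) {H : ℕ} (hH : 0 < H) :
    ∑ l ∈ range H, ∫ s in ((l : ℝ) / H)..(((l : ℝ) + 1) / H), f s = ∫ s in (0 : ℝ)..1, f s := by
  have := intervalIntegral.sum_integral_adjacent_intervals (μ := volume) (f := f)
    (a := fun l : ℕ => (l : ℝ) / H) (n := H) fun l _ => hf.intervalIntegrable _ _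
  simpa [div_self (Nat.cast_ne_zero.2 hH.ne' : (H : ℝ) ≠ 0)] using this

/-- Sampling: branch maxima of a squared product sum to at most `(1 + 4 π) H`. -/
theorem exists_weights (S : Stack) {k n : ℕ} (hkn : k ≤ n) {H : ℕ} (hH : S.height n ≤ H) :
    ∃ w : ℕ → ℝ, (∀ l : ℕ, 0 ≤ w l) ∧
      (∀ l : ℕ, ∀ t ∈ Set.Icc ((l : ℝ) / H) (((l : ℝ) + 1) / H), ‖S.prod k n t‖ ^ 2 ≤ w l) ∧
      ∑ l ∈ range H, w l ≤ (1 + 4 * Real.pi) * H := by
  have hH0 : 0 < H := (S.height_pos n).trans_le hH
  have hHR : (0 : ℝ) < H := Nat.cast_pos.2 hH0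
  have hπ := Real.pi_pos
  obtain ⟨s, hne, hlt, hs⟩ := S.exists_support hkn
  set q : ℂ := (Real.sqrt s.card : ℂ)⁻¹ with hq
  set p' : ℝ → ℂ := fun t => ∑ i ∈ s, (q * (((2 * Real.pi * i : ℝ) : ℂ) * Complex.I)) * ch (i * t)
    with hp'
  have hp : ∀ t, S.prod k n t = ∑ i ∈ s, q * ch (i * t) := fun t => by
    rw [hs, ← Finset.mul_sum, hq, div_eq_inv_mul]
  have hd : ∀ t, HasDerivAt (S.prod k n) (p' t) t := fun t => by
    rw [funext hp]
    refine (HasDerivAt.fun_sum (u := s) fun i _ =>
      (hasDerivAt_ch_mul ((i : ℕ) : ℝ) t).const_mul q).congr_deriv ?_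
    exact sum_congr rfl fun i _ => by ring
  have hp'c : Continuous p' := continuous_finsetSum _ fun i _ =>
    continuous_const.mul (continuous_ch.comp (continuous_const.mul continuous_id))
  set g' : ℝ → ℝ := fun t => 2 * (inner ℝ (S.prod k n t) (p' t) : ℝ) with hg'
  set c : ℝ := 2 * Real.pi * H with hcdef
  have hc : 0 < c := by positivity
  have hgd : ∀ t, HasDerivAt (fun t => ‖S.prod k n t‖ ^ 2) (g' t) t := fun t => (hd t).norm_sq
  have hg'c : Continuous g' := continuous_const.mul ((S.continuous_prod k n).inner hp'c)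
  have habs : ∀ t, |g' t| ≤ c * ‖S.prod k n t‖ ^ 2 + ‖p' t‖ ^ 2 / c := fun t => by
    rw [hg', abs_mul, abs_two]
    refine (mul_le_mul_of_nonneg_left (abs_real_inner_le_norm _ _) zero_le_two).trans ?_
    rw [← sub_nonneg]
    have e : c * ‖S.prod k n t‖ ^ 2 + ‖p' t‖ ^ 2 / c - 2 * (‖S.prod k n t‖ * ‖p' t‖) =
        (c * ‖S.prod k n t‖ - ‖p' t‖) ^ 2 / c := by
      field_simp
      ring
    rw [e]
    positivity
  refine ⟨fun l => (H : ℝ) * (∫ t in ((l : ℝ) / H)..(((l : ℝ) + 1) / H), ‖S.prod k n t‖ ^ 2) +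
    ∫ t in ((l : ℝ) / H)..(((l : ℝ) + 1) / H), |g' t|, fun l => ?_, fun l t ht => ?_, ?_⟩
  · have hle : (l : ℝ) / H ≤ ((l : ℝ) + 1) / H :=
      div_le_div_of_nonneg_right (by linarith) hHR.le
    exact add_nonneg (mul_nonneg hHR.le (integral_nonneg hle fun _ _ => sq_nonneg _))
      (integral_nonneg hle fun _ _ => abs_nonneg _)
  · refine (le_avg_add ((div_lt_div_iff_of_pos_right hHR).2 (by linarith)) ht hgd hg'c).trans
      (le_of_eq ?_)
    rw [← sub_div, add_sub_cancel_left, one_div, div_inv_eq_mul, mul_comm]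
  have hn1 := S.integral_prod_sq hkn
  have hP : ∫ t in (0 : ℝ)..1, ‖p' t‖ ^ 2 ≤ c ^ 2 := by
    rw [hp', integral_norm_sq s (fun i => i) Function.injective_id.injOn]
    have hcard : (0 : ℝ) < s.card := Nat.cast_pos.2 hne.card_pos
    refine (Finset.sum_le_sum (g := fun _ => c ^ 2 / s.card) fun i hi => ?_).trans (le_of_eq ?_)
    · rw [norm_mul, norm_mul, Complex.norm_real, Complex.norm_I, mul_one, hq, norm_inv,
        Complex.norm_real, Real.norm_eq_abs, Real.norm_eq_abs, mul_pow, inv_pow, sq_abs, sq_abs,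
        Real.sq_sqrt hcard.le, div_eq_inv_mul]
      have hi' : (i : ℝ) ≤ H := Nat.cast_le.2 ((hlt i hi).le.trans hH)
      exact mul_le_mul_of_nonneg_left (pow_le_pow_left₀ (by positivity)
        (mul_le_mul_of_nonneg_left hi' (by positivity)) 2) (by positivity)
    · rw [sum_const, nsmul_eq_mul]
      field_simp
  rw [Finset.sum_add_distrib, ← Finset.mul_sum,
    sum_integral_branches ((S.continuous_prod k n).norm.fun_pow 2) hH0, hn1,
    sum_integral_branches hg'c.abs hH0, mul_one]
  have h1 : ∫ t in (0 : ℝ)..1, |g' t| ≤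
      ∫ t in (0 : ℝ)..1, (c * ‖S.prod k n t‖ ^ 2 + ‖p' t‖ ^ 2 / c) :=
    integral_mono_on zero_le_one (hg'c.abs.intervalIntegrable _ _)
      (((continuous_const.mul ((S.continuous_prod k n).norm.fun_pow 2)).add
        ((hp'c.norm.fun_pow 2).div_const c)).intervalIntegrable _ _) fun t _ => habs t
  have hc1 : Continuous fun t => c * ‖S.prod k n t‖ ^ 2 :=
    continuous_const.mul ((S.continuous_prod k n).norm.fun_pow 2)
  have hc2 : Continuous fun t => ‖p' t‖ ^ 2 / c := (hp'c.norm.fun_pow 2).div_const c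
  rw [intervalIntegral.integral_add (hc1.intervalIntegrable _ _) (hc2.intervalIntegrable _ _),
    intervalIntegral.integral_const_mul, intervalIntegral.integral_div, hn1, mul_one] at h1
  have h2 : (∫ t in (0 : ℝ)..1, ‖p' t‖ ^ 2) / c ≤ c := by
    rw [div_le_iff₀ hc, ← sq]
    exact hP
  calc (H : ℝ) + ∫ t in (0 : ℝ)..1, |g' t| ≤ H + (c + c) := by linarith
    _ = (1 + 4 * Real.pi) * H := by rw [hcdef]; ring

theorem sq_norm_sub_le {f f' : ℝ → ℂ} (hd : ∀ s, HasDerivAt f (f' s) s) (hc : Continuous f')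
    {τ d : ℝ} (hτ : 0 ≤ τ) (hτd : τ ≤ d) :
    (‖f τ‖ - ‖f 0‖) ^ 2 ≤ d * ∫ s in (0 : ℝ)..d, ‖f' s‖ ^ 2 := by
  have h1 : |‖f τ‖ - ‖f 0‖| ≤ ∫ s in (0 : ℝ)..d, ‖f' s‖ := by
    refine (abs_norm_sub_norm_le _ _).trans ?_
    rw [← integral_eq_sub_of_hasDerivAt (fun s _ => hd s) (hc.intervalIntegrable 0 τ)]
    exact (intervalIntegral.norm_integral_le_integral_norm hτ).trans
      (intervalIntegral.integral_mono_interval le_rfl hτ hτd
        (Filter.Eventually.of_forall fun s => norm_nonneg _) (hc.norm.intervalIntegrable _ _))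
  refine (sq_abs _).symm.le.trans ((pow_le_pow_left₀ (abs_nonneg _) h1 2).trans ?_)
  rcases (hτ.trans hτd).eq_or_lt with rfl | hd0
  · simp
  set I := ∫ s in (0 : ℝ)..d, ‖f' s‖ with hI
  have h0 : (0 : ℝ) ≤ ∫ s in (0 : ℝ)..d, (‖f' s‖ ^ 2 - 2 * (I / d) * ‖f' s‖ + (I / d) ^ 2) := by
    refine intervalIntegral.integral_nonneg hd0.le fun s _ => ?_
    nlinarith [sq_nonneg (‖f' s‖ - I / d)]
  have hc1 : Continuous fun s => ‖f' s‖ ^ 2 := hc.norm.fun_pow 2
  have hc2 : Continuous fun s => 2 * (I / d) * ‖f' s‖ := continuous_const.fun_mul hc.norm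
  rw [intervalIntegral.integral_add ((hc1.fun_sub hc2).intervalIntegrable _ _) intervalIntegrable_const,
    intervalIntegral.integral_sub (hc1.intervalIntegrable _ _) (hc2.intervalIntegrable _ _),
    intervalIntegral.integral_const_mul, intervalIntegral.integral_const, smul_eq_mul, sub_zero,
    ← hI] at h0
  have h2 := mul_nonneg hd0.le h0
  have e : d * ((∫ s in (0 : ℝ)..d, ‖f' s‖ ^ 2) - 2 * (I / d) * I + d * (I / d) ^ 2) =
      d * (∫ s in (0 : ℝ)..d, ‖f' s‖ ^ 2) - I ^ 2 := by
    field_simp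
    ring
  linarith

/-- The derivative of the column polynomial in the offset frequency. -/
def columnDeriv {m : ℕ} (a : Fin m → ℕ) (ψ u : ℝ) : ℂ :=
  ∑ j : Fin m, (((2 * Real.pi * (a j : ℕ) : ℝ) : ℂ) * Complex.I * ch (ψ * a j)) * ch ((j : ℕ) * u)

theorem continuous_column {m : ℕ} (a : Fin m → ℕ) :
    Continuous fun x : ℝ × ℝ => column a x.1 x.2 :=
  continuous_finsetSum _ fun j _ => continuous_ch.comp (by fun_prop)

theorem continuous_columnDeriv {m : ℕ} (a : Fin m → ℕ) :
    Continuous fun x : ℝ × ℝ => columnDeriv a x.1 x.2 := by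
  refine continuous_finsetSum _ fun j _ => ?_
  exact (continuous_const.mul (continuous_ch.comp (continuous_fst.mul continuous_const))).mul
    (continuous_ch.comp (continuous_const.mul continuous_snd))

theorem hasDerivAt_column {m : ℕ} (a : Fin m → ℕ) (ψ u : ℝ) :
    HasDerivAt (fun ψ => column a ψ u) (columnDeriv a ψ u) ψ := by
  have e : (fun ψ => column a ψ u) =
      fun ψ => ∑ j : Fin m, ch ((a j : ℕ) * ψ) * ch ((j : ℕ) * u) := funext fun ψ =>
    Finset.sum_congr rfl fun j _ => by rw [← ch_add, mul_comm ψ]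
  rw [e]
  refine (HasDerivAt.fun_sum (u := univ) fun (j : Fin m) _ =>
    (hasDerivAt_ch_mul ((a j : ℕ) : ℝ) ψ).mul_const (ch ((j : ℕ) * u))).congr_deriv
      (Finset.sum_congr rfl fun j _ => by rw [mul_comm ψ])

theorem integral_columnDeriv_sq_le {m A : ℕ} (a : Fin m → ℕ) (hA : ∀ j, a j ≤ A) (ψ : ℝ) :
    ∫ u in (0 : ℝ)..1, ‖columnDeriv a ψ u‖ ^ 2 ≤ (2 * Real.pi * A) ^ 2 * m := by
  unfold columnDeriv
  rw [integral_norm_sq (univ : Finset (Fin m)) (fun j => (j : ℕ)) Fin.val_injective.injOn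
    fun j => ((2 * Real.pi * (a j : ℕ) : ℝ) : ℂ) * Complex.I * ch (ψ * a j)]
  refine (Finset.sum_le_sum (g := fun _ => (2 * Real.pi * A) ^ 2) fun j _ => ?_).trans
    (le_of_eq (by rw [sum_const, card_univ, Fintype.card_fin, nsmul_eq_mul, mul_comm]))
  rw [norm_mul, norm_mul, Complex.norm_real, Complex.norm_I, norm_ch, mul_one, mul_one,
    Real.norm_eq_abs, sq_abs]
  exact pow_le_pow_left₀ (by positivity)
    (mul_le_mul_of_nonneg_left (Nat.cast_le.2 (hA j)) (by positivity)) 2

attribute [local irreducible] column columnDeriv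

/-- Moving the offset frequency inside a branch of length `d` costs at most `(2 π A d)²` per
column in mean square. -/
theorem perturb {m A : ℕ} (a : Fin m → ℕ) (hA : ∀ j, a j ≤ A) (ψ : ℝ) {d : ℝ} (hd : 0 ≤ d) :
    ∫ u in (0 : ℝ)..1, (‖column a (ψ + u * d) u‖ - ‖column a ψ u‖) ^ 2 ≤
      (2 * Real.pi * A * d) ^ 2 * m := by
  have hG2 : Continuous (Function.uncurry fun (s u : ℝ) => ‖columnDeriv a (ψ + s) u‖ ^ 2) :=
    (Continuous.norm ((continuous_columnDeriv a).comp
      ((continuous_const.add continuous_fst).prodMk continuous_snd))).fun_pow 2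
  have hG2' : Continuous (Function.uncurry fun (u s : ℝ) => ‖columnDeriv a (ψ + s) u‖ ^ 2) :=
    (Continuous.norm ((continuous_columnDeriv a).comp
      ((continuous_const.add continuous_snd).prodMk continuous_fst))).fun_pow 2
  have hBc : Continuous fun u => ∫ s in (0 : ℝ)..d, ‖columnDeriv a (ψ + s) u‖ ^ 2 :=
    intervalIntegral.continuous_parametric_intervalIntegral_of_continuous' hG2' 0 d
  have hGu : Continuous fun s => ∫ u in (0 : ℝ)..1, ‖columnDeriv a (ψ + s) u‖ ^ 2 :=
    intervalIntegral.continuous_parametric_intervalIntegral_of_continuous' hG2 0 1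
  have hcol : Continuous fun u => (‖column a (ψ + u * d) u‖ - ‖column a ψ u‖) ^ 2 :=
    (((continuous_column a).comp
      ((continuous_const.add (continuous_id.mul continuous_const)).prodMk continuous_id)).norm.sub
      ((continuous_column a).comp (continuous_const.prodMk continuous_id)).norm).fun_pow 2
  have hpt : ∀ u ∈ Set.Icc (0 : ℝ) 1, (‖column a (ψ + u * d) u‖ - ‖column a ψ u‖) ^ 2 ≤
      d * ∫ s in (0 : ℝ)..d, ‖columnDeriv a (ψ + s) u‖ ^ 2 := by
    intro u hu
    have h := sq_norm_sub_le (f := fun s => column a (ψ + s) u)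
      (fun s => (hasDerivAt_column a (ψ + s) u).comp_const_add ψ s)
      ((continuous_columnDeriv a).comp ((continuous_const.add continuous_id).prodMk continuous_const))
      (mul_nonneg hu.1 hd) (mul_le_of_le_one_left hd hu.2)
    simpa using h
  have hswap := MeasureTheory.intervalIntegral_intervalIntegral_swap (a := (0 : ℝ)) (b := 1)
    (c := 0) (d := d) ((hG2'.continuousOn.integrableOn_compact
      (isCompact_uIcc.prod isCompact_uIcc)).mono_set
      (Set.prod_mono Set.uIoc_subset_uIcc Set.uIoc_subset_uIcc))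
  refine (intervalIntegral.integral_mono_on zero_le_one (hcol.intervalIntegrable _ _)
    ((continuous_const.fun_mul hBc).intervalIntegrable _ _) hpt).trans ?_
  rw [intervalIntegral.integral_const_mul, hswap]
  refine (mul_le_mul_of_nonneg_left (intervalIntegral.integral_mono_on hd
    (hGu.intervalIntegrable _ _) intervalIntegrable_const
    fun s _ => integral_columnDeriv_sq_le a hA (ψ + s)) hd).trans (le_of_eq ?_)
  rw [intervalIntegral.integral_const, smul_eq_mul, sub_zero]
  ring

end Vale.Agent.P130.Full.Riesz
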